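import Mathlib

/-!
**Local homomorphisms are invariant under conjugation as germs.**

`germ_conj`: a function which is multiplicative near `1` in a topological ring with small central
units is invariant near `1` under the conjugation by every unit.
`germ_conj_unitary`: the same for the unitary group of a division ring with involution.
`swap_of_hom`: `Ψ (1 + x y) = Ψ (1 + y x)` for every homomorphism on a congruence subgroup.
-/

open Filter Topology

namespace Vale.Agent.P011.H90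

section ring

variable {R E : Type*} [Ring R] [TopologicalSpace R] [IsTopologicalRing R] [CommGroup E]

/-- **A local homomorphism is invariant under conjugation as a germ.** -/
theorem germ_conj
    (hinv : ∀ a : R, IsUnit a → (∀ᶠ b in 𝓝 a, IsUnit b) ∧ ContinuousAt Ring.inverse a)
    (hc : ∀ O ∈ 𝓝 (0 : R), ∃ π ∈ O, IsUnit π ∧ ∀ x, π * x = x * π)
    (Ψ : R → E) (hmul : ∀ᶠ p : R × R in 𝓝 ((1 : R), (1 : R)), Ψ (p.1 * p.2) = Ψ p.1 * Ψ p.2)
    {g : R} (hg : IsUnit g) :
    ∀ᶠ m in 𝓝 (1 : R), Ψ (g * m * Ring.inverse g) = Ψ m := by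
  obtain ⟨O1, hO1, O2, hO2, hP⟩ := mem_nhds_prod_iff.mp hmul
  obtain ⟨O, hOs, hOo, h1O⟩ := mem_nhds_iff.mp (Filter.inter_mem hO1 hO2)
  have hOO : ∀ x ∈ O, ∀ y ∈ O, Ψ (x * y) = Ψ x * Ψ y := fun x hx y hy =>
    hP (Set.mk_mem_prod (hOs hx).1 (hOs hy).2)
  -- the element `t`
  have ht0 : Tendsto (fun π : R => 1 + π * g) (𝓝 0) (𝓝 1) := by
    have : ContinuousAt (fun π : R => 1 + π * g) 0 := by fun_prop
    simpa [ContinuousAt] using this
  obtain ⟨π, hπO, ⟨u, rfl⟩, hπc⟩ := hc _ (ht0 (hOo.mem_nhds h1O))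
  set t : R := 1 + (u : R) * g with ht
  have htO : t ∈ O := hπO
  have hgi : g * Ring.inverse g = 1 := Ring.mul_inverse_cancel g hg
  have hig : Ring.inverse g * g = 1 := Ring.inverse_mul_cancel g hg
  have htg : t * g = g * t := by
    rw [ht, add_mul, mul_add, one_mul, mul_one, ← mul_assoc g, ← hπc g]
  -- the commuting element
  let e : R → R := fun m => (↑u⁻¹ : R) * (t * m - 1)
  have he1 : e 1 = g := by
    simp only [e, ht, mul_one, add_sub_cancel_left, Units.inv_mul_cancel_left]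
  have hec : Tendsto e (𝓝 1) (𝓝 g) := by
    have h : ContinuousAt e 1 := by
      simp only [e]
      fun_prop
    have h2 := h.tendsto
    rwa [he1] at h2
  have hui : ∀ x : R, (↑u⁻¹ : R) * x = x * (↑u⁻¹ : R) := by
    intro x
    have h := hπc ((↑u⁻¹ : R) * x * (↑u⁻¹ : R))
    simp only [mul_assoc, Units.inv_mul, mul_one] at h
    rw [← mul_assoc (u : R), Units.mul_inv, one_mul] at h
    exact h.symm
  have hcomm : ∀ m, e m * (t * m) = (t * m) * e m := by
    intro m
    simp only [e]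
    rw [← mul_assoc (t * m), ← hui (t * m), mul_assoc, mul_assoc]
    congr 1
    rw [sub_mul, mul_sub, one_mul, mul_one]
  have hx : Tendsto (fun m => g * Ring.inverse (e m)) (𝓝 1) (𝓝 1) := by
    have h := ((hinv g hg).2.tendsto.comp hec).const_mul g
    rwa [hgi] at h
  have hev : ∀ᶠ m in 𝓝 (1 : R), IsUnit (e m) := hec.eventually (hinv g hg).1
  have hO : ∀ {f : R → R} {a : R}, Tendsto f (𝓝 1) (𝓝 a) → a ∈ O → ∀ᶠ m in 𝓝 (1 : R), f m ∈ O :=
    fun hf ha => hf.eventually (hOo.mem_nhds ha)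
  have h1 : Tendsto (fun m : R => t * m) (𝓝 1) (𝓝 t) := by
    have : ContinuousAt (fun m : R => t * m) 1 := by fun_prop
    simpa [ContinuousAt] using this
  have h2 : Tendsto (fun m : R => g * m * Ring.inverse g) (𝓝 1) (𝓝 1) := by
    have : ContinuousAt (fun m : R => g * m * Ring.inverse g) 1 := by fun_prop
    simpa [ContinuousAt, hgi] using this
  have h3 : Tendsto (fun m : R => t * (g * m * Ring.inverse g)) (𝓝 1) (𝓝 t) := by
    have := h2.const_mul t
    rwa [mul_one] at this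
  filter_upwards [hev, hO hx h1O, hO h1 htO, hO h2 h1O, hO h3 htO, hOo.mem_nhds h1O] with
    m hme hmx hm1 hm2 hm3 hm
  have hei : e m * Ring.inverse (e m) = 1 := Ring.mul_inverse_cancel _ hme
  have hie : Ring.inverse (e m) * e m = 1 := Ring.inverse_mul_cancel _ hme
  have hic : Ring.inverse (e m) * (t * m) = (t * m) * Ring.inverse (e m) := by
    calc Ring.inverse (e m) * (t * m)
        = Ring.inverse (e m) * ((t * m) * e m) * Ring.inverse (e m) := by
          rw [mul_assoc, mul_assoc (t * m), hei, mul_one]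
      _ = Ring.inverse (e m) * (e m * (t * m)) * Ring.inverse (e m) := by rw [hcomm]
      _ = (t * m) * Ring.inverse (e m) := by rw [← mul_assoc (Ring.inverse (e m)), hie, one_mul]
  have key : g * Ring.inverse (e m) * (t * m) =
      t * (g * m * Ring.inverse g) * (g * Ring.inverse (e m)) := by
    calc g * Ring.inverse (e m) * (t * m)
        = g * t * m * Ring.inverse (e m) := by rw [mul_assoc g, hic]; simp only [mul_assoc]
      _ = t * g * m * Ring.inverse (e m) := by rw [htg]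
      _ = t * (g * m * Ring.inverse g) * (g * Ring.inverse (e m)) := by
          simp only [mul_assoc]
          rw [← mul_assoc (Ring.inverse g) g, hig, one_mul]
  have e1 := hOO _ hmx _ hm1
  have e2 := hOO _ hm3 _ hmx
  rw [hOO t htO m hm] at e1
  rw [hOO t htO _ hm2] at e2
  rw [key, e2] at e1
  -- `Ψ t * Ψ (g m g⁻¹) * Ψ x = Ψ x * (Ψ t * Ψ m)`
  rw [mul_comm (Ψ (g * Ring.inverse (e m)))] at e1
  exact mul_left_cancel (mul_right_cancel e1)

end ring

section division

variable {D E : Type*} [DivisionRing D] [TopologicalSpace D] [IsTopologicalDivisionRing D]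
  [T1Space D] [CommGroup E]

/-- The case of a division ring. -/
theorem germ_conj_div
    (hc : ∀ O ∈ 𝓝 (0 : D), ∃ π ∈ O, π ≠ 0 ∧ ∀ x, π * x = x * π)
    (Ψ : D → E) (hmul : ∀ᶠ p : D × D in 𝓝 ((1 : D), (1 : D)), Ψ (p.1 * p.2) = Ψ p.1 * Ψ p.2)
    {g : D} (hg : g ≠ 0) : ∀ᶠ m in 𝓝 (1 : D), Ψ (g * m * g⁻¹) = Ψ m := by
  have hinv0 : (Ring.inverse : D → D) = fun x => x⁻¹ := by
    funext x
    exact Ring.inverse_eq_inv x
  have h := germ_conj (R := D) (E := E) (fun a ha => ⟨by
      filter_upwards [ContinuousAt.eventually_ne continuousAt_id ha.ne_zero] with b hb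
      exact isUnit_iff_ne_zero.mpr hb, by
      rw [hinv0]; exact continuousAt_inv₀ ha.ne_zero⟩)
    (fun O hO => by
      obtain ⟨π, h1, h2, h3⟩ := hc O hO
      exact ⟨π, h1, isUnit_iff_ne_zero.mpr h2, h3⟩) Ψ hmul (isUnit_iff_ne_zero.mpr hg)
  simpa only [hinv0] using h

/-- **The case of the unitary group**, characteristic different from two (Cayley). -/
theorem germ_conj_unitary [StarRing D] [ContinuousStar D] (h2 : (2 : D) ≠ 0)
    (hc : ∀ O ∈ 𝓝 (0 : D), ∃ π ∈ O, π ≠ 0 ∧ star π = π ∧ ∀ x, π * x = x * π)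
    (c : D → E) (hmul : ∀ᶠ p : D × D in 𝓝 ((1 : D), (1 : D)), p.1 * star p.1 = 1 →
      p.2 * star p.2 = 1 → c (p.1 * p.2) = c p.1 * c p.2)
    {g : D} (hg : g * star g = 1) :
    ∀ᶠ m in 𝓝 (1 : D), m * star m = 1 → c (g * m * g⁻¹) = c m := by
  have hsu : ∀ {a : D}, a * star a = 1 → star a = a⁻¹ := fun {a} h =>
    eq_inv_of_mul_eq_one_right h
  have hun : ∀ {a : D}, a ≠ 0 → star a = a⁻¹ → a * star a = 1 := fun {a} h0 h => by
    rw [h, mul_inv_cancel₀ h0]
  have hg0 : g ≠ 0 := by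
    rintro rfl
    rw [zero_mul] at hg
    exact zero_ne_one hg
  rcases eq_or_ne (g + 1) 0 with hg1 | hg1
  · have hgm : g = -1 := eq_neg_of_add_eq_zero_left hg1
    refine Eventually.of_forall fun m _ => ?_
    rw [hgm, inv_neg, inv_one, neg_mul, one_mul, mul_neg, mul_one, neg_neg]
  -- the skew element
  set s : D := (g - 1) * (g + 1)⁻¹ with hs
  have hcom1 : ∀ {a b : D}, Commute a b → b ≠ 0 → Commute a b⁻¹ := fun h hb => h.inv_right₀
  have hgs : Commute g s := by
    rw [hs]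
    exact ((Commute.refl g).sub_right (Commute.one_right g)).mul_right
      (((Commute.refl g).add_right (Commute.one_right g)).inv_right₀)
  have hcay : ∀ {τ : D}, τ * star τ = 1 → τ + 1 ≠ 0 →
      star ((τ - 1) * (τ + 1)⁻¹) = -((τ - 1) * (τ + 1)⁻¹) := by
    intro τ hτ hτ1
    have h0 : τ ≠ 0 := by
      rintro rfl
      rw [zero_mul] at hτ
      exact zero_ne_one hτ
    rw [star_mul, star_inv₀, star_sub, star_add, star_one, hsu hτ]
    have e1 : τ⁻¹ + 1 = τ⁻¹ * (τ + 1) := by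
      rw [mul_add, inv_mul_cancel₀ h0, mul_one, add_comm]
    have e2 : τ⁻¹ - 1 = -(τ⁻¹ * (τ - 1)) := by
      rw [mul_sub, inv_mul_cancel₀ h0, mul_one, neg_sub]
    have e3 : Commute (τ + 1)⁻¹ (τ - 1) :=
      ((((Commute.refl τ).sub_right (Commute.one_right τ)).add_left
        ((Commute.one_left τ).sub_right (Commute.one_left 1))).inv_left₀)
    rw [e1, e2, mul_inv_rev, inv_inv, mul_neg, neg_inj, mul_assoc, mul_inv_cancel_left₀ h0, e3.eq]
  have hss : star s = -s := hcay hg hg1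
  -- the exceptional values
  have hne : ∀ {x : D}, star x = -x → 1 - x ≠ 0 := by
    intro x hx h
    have h1 : x = 1 := (sub_eq_zero.mp h).symm
    rw [h1, star_one, eq_neg_iff_add_eq_zero, one_add_one_eq_two] at hx
    exact h2 hx
  have hne' : ∀ {x : D}, star x = -x → 1 + x ≠ 0 := by
    intro x hx h
    have := hne (x := -x) (by rw [star_neg, hx])
    rw [sub_neg_eq_add] at this
    exact this h
  have hcu : ∀ {x : D}, star x = -x → ((1 + x) * (1 - x)⁻¹) * star ((1 + x) * (1 - x)⁻¹) = 1 := by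
    intro x hx
    rw [star_mul, star_inv₀, star_sub, star_add, star_one, hx, sub_neg_eq_add, ← sub_eq_add_neg]
    have e3 : Commute (1 - x) (1 + x) :=
      ((Commute.one_left _).sub_left (((Commute.one_right x)).add_right (Commute.refl x)))
    have e4 : (1 - x)⁻¹ * ((1 + x)⁻¹ * (1 - x)) = (1 + x)⁻¹ := by
      rw [(e3.inv_right₀ : Commute (1 - x) (1 + x)⁻¹).eq.symm, inv_mul_cancel_left₀ (hne hx)]
    rw [mul_assoc, e4, mul_inv_cancel₀ (hne' hx)]
  have hback : (1 + s) * (1 - s)⁻¹ = g := by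
    have e1 : 1 + s = 2 * g * (g + 1)⁻¹ := by
      rw [hs, eq_mul_inv_iff_mul_eq₀ hg1, add_mul, one_mul, inv_mul_cancel_right₀ hg1, two_mul]
      abel
    have e2 : 1 - s = 2 * (g + 1)⁻¹ := by
      rw [hs, eq_mul_inv_iff_mul_eq₀ hg1, sub_mul, one_mul, inv_mul_cancel_right₀ hg1]
      rw [← one_add_one_eq_two]
      abel
    have e5 : Commute (2 : D) g := (Nat.cast_commute 2 g)
    rw [e1, e2, mul_inv_rev, inv_inv, e5.eq]
    simp only [mul_assoc]
    rw [inv_mul_cancel_left₀ hg1, mul_inv_cancel₀ h2, mul_one]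
  -- neighbourhoods
  obtain ⟨O1, hO1, O2, hO2, hP⟩ := mem_nhds_prod_iff.mp hmul
  obtain ⟨O, hOs, hOo, h1O⟩ := mem_nhds_iff.mp (Filter.inter_mem hO1 hO2)
  have hOO : ∀ x ∈ O, ∀ y ∈ O, x * star x = 1 → y * star y = 1 → c (x * y) = c x * c y :=
    fun x hx y hy => hP (Set.mk_mem_prod (hOs hx).1 (hOs hy).2)
  have ht0 : Tendsto (fun π : D => (1 + π * s) * (1 - π * s)⁻¹) (𝓝 0) (𝓝 1) := by
    have : ContinuousAt (fun π : D => (1 + π * s) * (1 - π * s)⁻¹) 0 := by
      refine ContinuousAt.mul (by fun_prop) (ContinuousAt.inv₀ (by fun_prop) ?_)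
      simp
    simpa [ContinuousAt] using this
  obtain ⟨π, hπO, hπ0, hπs, hπc⟩ := hc _ (ht0 (hOo.mem_nhds h1O))
  have hsk : star (π * s) = -(π * s) := by
    rw [star_mul, hss, hπs, neg_mul, ← hπc]
  set t : D := (1 + π * s) * (1 - π * s)⁻¹ with ht
  have htO : t ∈ O := hπO
  have htu : t * star t = 1 := hcu hsk
  have hn1 : 1 - π * s ≠ 0 := hne hsk
  have htp : t + 1 = 2 * (1 - π * s)⁻¹ := by
    rw [ht, eq_mul_inv_iff_mul_eq₀ hn1, add_mul, one_mul, inv_mul_cancel_right₀ hn1,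
      ← one_add_one_eq_two]
    abel
  have htm : t - 1 = 2 * (π * s) * (1 - π * s)⁻¹ := by
    rw [ht, eq_mul_inv_iff_mul_eq₀ hn1, sub_mul, one_mul, inv_mul_cancel_right₀ hn1, two_mul]
    abel
  have ht1 : t + 1 ≠ 0 := by
    rw [htp]
    exact mul_ne_zero h2 (inv_ne_zero hn1)
  have h2c : ∀ x : D, (2 : D) * x = x * 2 := fun x => (Nat.cast_commute 2 x).eq
  have hts : π⁻¹ * ((t - 1) * (t + 1)⁻¹) = s := by
    rw [htm, htp, mul_inv_rev, inv_inv]
    simp only [mul_assoc]
    rw [inv_mul_cancel_left₀ hn1, h2c, mul_assoc, mul_assoc, inv_mul_cancel₀ h2, mul_one,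
      inv_mul_cancel_left₀ hπ0]
  have hgt : Commute g t := by
    have h1 : Commute g (π * s) := by
      refine Commute.mul_right ?_ hgs
      exact (hπc g).symm
    rw [ht]
    exact ((Commute.one_right g).add_right h1).mul_right
      (((Commute.one_right g).sub_right h1).inv_right₀)
  -- the moving skew element and the commuting unitary
  let sk : D → D := fun m => π⁻¹ * ((t * m - 1) * (t * m + 1)⁻¹)
  let e : D → D := fun m => (1 + sk m) * (1 - sk m)⁻¹
  have hsk1 : sk 1 = s := by simp only [sk, mul_one, hts]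
  have hskc : ContinuousAt sk 1 := by
    refine ContinuousAt.mul continuousAt_const (ContinuousAt.mul (by fun_prop)
      (ContinuousAt.inv₀ (by fun_prop) ?_))
    rwa [mul_one]
  have he1 : e 1 = g := by simp only [e, hsk1, hback]
  have hec : ContinuousAt e 1 := by
    refine ContinuousAt.mul (continuousAt_const.add hskc)
      (ContinuousAt.inv₀ (continuousAt_const.sub hskc) ?_)
    rw [hsk1]
    exact hne hss
  have hx : Tendsto (fun m => g * (e m)⁻¹) (𝓝 1) (𝓝 1) := by
    have h : ContinuousAt (fun m => g * (e m)⁻¹) 1 :=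
      continuousAt_const.mul (hec.inv₀ (by rw [he1]; exact hg0))
    simpa [ContinuousAt, he1, mul_inv_cancel₀ hg0] using h
  have hO : ∀ {f : D → D} {a : D}, Tendsto f (𝓝 1) (𝓝 a) → a ∈ O → ∀ᶠ m in 𝓝 (1 : D), f m ∈ O :=
    fun hf ha => hf.eventually (hOo.mem_nhds ha)
  have h1 : Tendsto (fun m : D => t * m) (𝓝 1) (𝓝 t) := by
    have : ContinuousAt (fun m : D => t * m) 1 := by fun_prop
    simpa [ContinuousAt] using this
  have h2' : Tendsto (fun m : D => g * m * g⁻¹) (𝓝 1) (𝓝 1) := by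
    have : ContinuousAt (fun m : D => g * m * g⁻¹) 1 := by fun_prop
    simpa [ContinuousAt, mul_inv_cancel₀ hg0] using this
  have h3 : Tendsto (fun m : D => t * (g * m * g⁻¹)) (𝓝 1) (𝓝 t) := by
    have := h2'.const_mul t
    rwa [mul_one] at this
  have h4 : ∀ᶠ m in 𝓝 (1 : D), t * m + 1 ≠ 0 := by
    have : Tendsto (fun m : D => t * m + 1) (𝓝 1) (𝓝 (t + 1)) := h1.add_const 1
    exact this.eventually_ne ht1
  filter_upwards [hO hx h1O, hO h1 htO, hO h2' h1O, hO h3 htO, hOo.mem_nhds h1O, h4] with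
    m hmx hm1 hm2 hm3 hm hm4 hmu
  have hm0 : m ≠ 0 := by
    rintro rfl
    rw [zero_mul] at hmu
    exact zero_ne_one hmu
  have ht00 : t ≠ 0 := by
    intro h
    rw [h, zero_mul] at htu
    exact zero_ne_one htu
  have hmulu : ∀ {a b : D}, a * star a = 1 → b * star b = 1 → (a * b) * star (a * b) = 1 := by
    intro a b ha hb
    rw [star_mul, mul_assoc, ← mul_assoc b, hb, one_mul, ha]
  have hinvu : ∀ {a : D}, a ≠ 0 → a * star a = 1 → a⁻¹ * star a⁻¹ = 1 := by
    intro a h0 ha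
    rw [star_inv₀, hsu ha, inv_inv, inv_mul_cancel₀ h0]
  have htmu : (t * m) * star (t * m) = 1 := hmulu htu hmu
  have hskm : star (sk m) = -sk m := by
    have h := hcay htmu hm4
    have hπi : star π⁻¹ = π⁻¹ := by rw [star_inv₀, hπs]
    have hπic : ∀ x : D, π⁻¹ * x = x * π⁻¹ := fun x => by
      have : Commute π x := hπc x
      exact this.inv_left₀.eq
    simp only [sk]
    rw [star_mul, h, hπi, neg_mul, ← hπic]
  have heu : e m * star (e m) = 1 := hcu hskm
  have he0 : e m ≠ 0 := by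
    intro h
    rw [h, zero_mul] at heu
    exact zero_ne_one heu
  have hcomm : Commute (e m) (t * m) := by
    have h5 : Commute (sk m) (t * m) := by
      have hπi : Commute π⁻¹ (t * m) := (show Commute π (t * m) from hπc _).inv_left₀
      refine hπi.mul_left (Commute.mul_left ?_ (Commute.inv_left₀ ?_))
      · exact (Commute.refl _).sub_left (Commute.one_left _)
      · exact (Commute.refl _).add_left (Commute.one_left _)
    exact ((Commute.one_left _).add_left h5).mul_left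
      (((Commute.one_left _).sub_left h5).inv_left₀)
  have hxu : (g * (e m)⁻¹) * star (g * (e m)⁻¹) = 1 := hmulu hg (hinvu he0 heu)
  have hgmu : (g * m * g⁻¹) * star (g * m * g⁻¹) = 1 := hmulu (hmulu hg hmu) (hinvu hg0 hg)
  have key : g * (e m)⁻¹ * (t * m) = t * (g * m * g⁻¹) * (g * (e m)⁻¹) := by
    have hic : (e m)⁻¹ * (t * m) = (t * m) * (e m)⁻¹ := hcomm.inv_left₀.eq
    rw [mul_assoc g, hic]
    simp only [mul_assoc]
    rw [inv_mul_cancel_left₀ hg0, ← mul_assoc g t, hgt.eq, mul_assoc]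
  have e1 := hOO _ hmx _ hm1 hxu htmu
  have e2 := hOO _ hm3 _ hmx (hmulu htu hgmu) hxu
  rw [hOO t htO m hm htu hmu] at e1
  rw [hOO t htO _ hm2 htu hgmu] at e2
  rw [key, e2] at e1
  rw [mul_comm (c (g * (e m)⁻¹))] at e1
  exact mul_left_cancel (mul_right_cancel e1)

end division

section swap

variable {R E : Type*} [Ring R] [CommGroup E]

/-- **`Ψ (1 + x y) = Ψ (1 + y x)` for every homomorphism on a congruence subgroup**, uniformly in
`y ∈ O`. No invariance under conjugation is assumed: `s` is a large central element. -/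
theorem swap_of_hom {O : Subring R} {I : AddSubgroup R} (hIO : ∀ x ∈ I, x ∈ O)
    (hl : ∀ a ∈ O, ∀ x ∈ I, a * x ∈ I) (hr : ∀ a ∈ O, ∀ x ∈ I, x * a ∈ I)
    (hinv : ∀ x ∈ I, ∃ y ∈ I, (1 + x) * (1 + y) = 1 ∧ (1 + y) * (1 + x) = 1) (Ψ : R → E)
    (hmul : ∀ x ∈ I, ∀ y ∈ I, Ψ ((1 + x) * (1 + y)) = Ψ (1 + x) * Ψ (1 + y))
    {s s' : R} (hss : s * s' = 1) (hs : ∀ x, s * x = x * s) (hs' : ∀ y ∈ O, s' * y ∈ I)
    {x y : R} (hx : s * x ∈ I) (hy : y ∈ O) : Ψ (1 + x * y) = Ψ (1 + y * x) := by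
  have hO1 : ∀ z ∈ I, 1 + z ∈ O := fun z hz => O.add_mem O.one_mem (hIO z hz)
  set e : R := s' * y with he
  have heI : e ∈ I := hs' y hy
  have hye : y = s * (1 + e) - s := by
    rw [he, mul_add, mul_one, ← mul_assoc, hss, one_mul]
    abel
  -- the two factors
  have hA : s * x * (1 + e) ∈ I := hr _ (hO1 e heI) _ hx
  have hA' : (1 + e) * (s * x) ∈ I := hl _ (hO1 e heI) _ hx
  obtain ⟨b, hbI, hb1, hb2⟩ := hinv _ hA'
  obtain ⟨f, hfI, hf1, hf2⟩ := hinv _ hA
  have hcomA : (1 + (1 + e) * (s * x)) * (1 + e) = (1 + e) * (1 + s * x * (1 + e)) := by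
    noncomm_ring
  have hAA : Ψ (1 + (1 + e) * (s * x)) = Ψ (1 + s * x * (1 + e)) := by
    have h1 := hmul _ hA' _ heI
    have h2 := hmul _ heI _ hA
    rw [hcomA, h2, mul_comm] at h1
    exact (mul_right_cancel h1).symm
  -- the small element
  set w : R := s * x * (1 + b) with hw
  have hwI : w ∈ I := hr _ (hO1 b hbI) _ hx
  have hwI' : -w ∈ I := I.neg_mem hwI
  have hxs : x * s = s * x := (hs x).symm
  have hxA : x * (1 + (1 + e) * (s * x)) = (1 + s * x * (1 + e)) * x := by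
    have h1 : x * ((1 + e) * (s * x)) = s * x * (1 + e) * x := by
      calc x * ((1 + e) * (s * x)) = x * (1 + e) * s * x := by simp only [mul_assoc]
        _ = s * (x * (1 + e)) * x := by rw [← hs]
        _ = s * x * (1 + e) * x := by simp only [mul_assoc]
    rw [show x * (1 + (1 + e) * (s * x)) = x + x * ((1 + e) * (s * x)) by rw [mul_add, mul_one],
      h1, add_mul, one_mul]
  -- `w = s * x * A'⁻¹ = A⁻¹ * x * s`
  have hw2 : (1 + s * x * (1 + e)) * w = s * x := by
    rw [hw]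
    calc (1 + s * x * (1 + e)) * (s * x * (1 + b))
        = s * ((1 + s * x * (1 + e)) * x) * (1 + b) := by
          rw [← mul_assoc, ← mul_assoc, ← mul_assoc, ← hs]
      _ = s * (x * (1 + (1 + e) * (s * x))) * (1 + b) := by rw [hxA]
      _ = s * x * ((1 + (1 + e) * (s * x)) * (1 + b)) := by simp only [mul_assoc]
      _ = s * x := by rw [hb1, mul_one]
  have hw3 : w * (1 + (1 + e) * (s * x)) = s * x := by
    rw [hw, mul_assoc, hb2, mul_one]
  have e1 : 1 + x * y = (1 + s * x * (1 + e)) * (1 + -w) := by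
    rw [mul_add, mul_one, mul_neg, hw2, hye, mul_sub, ← mul_assoc x s, hxs]
    abel
  have e2 : 1 + y * x = (1 + -w) * (1 + (1 + e) * (s * x)) := by
    rw [add_mul, one_mul, neg_mul, hw3, hye, sub_mul, hs (1 + e), mul_assoc (1 + e) s x]
    abel
  rw [e1, e2, hmul _ hA _ hwI', hmul _ hwI' _ hA', hAA, mul_comm]

end swap

end Vale.Agent.P011.H90
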